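import Vale.Agent.Lib.P348.Site

namespace Vale.Agent.Lib.P348

open Matrix

variable {L : ℕ}

/-- raising matrix (unnormalised) -/
def mu : Matrix (Fin 3) (Fin 3) ℂ := !![0, 1, 0; 0, 0, 1; 0, 0, 0]

/-- lowering matrix (unnormalised) -/
def md : Matrix (Fin 3) (Fin 3) ℂ := !![0, 0, 0; 1, 0, 0; 0, 1, 0]

lemma Sx_eq : Sx = ((1 / Real.sqrt 2 : ℝ) : ℂ) • (mu + md) := by
  unfold Sx mu md
  congr 1
  ext i j
  fin_cases i <;> fin_cases j <;> simp

lemma Sy_eq : Sy = (((1 / Real.sqrt 2 : ℝ) : ℂ) * (-Complex.I)) • (mu - md) := by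
  unfold Sy mu md
  rw [mul_smul]
  congr 1
  ext i j
  fin_cases i <;> fin_cases j <;> simp

lemma sz_mu : Sz * mu - mu * Sz = mu := by
  ext i j
  fin_cases i <;> fin_cases j <;> simp [Sz, mu, Matrix.mul_apply, Fin.sum_univ_three]

lemma md_mu : md * mu - mu * md = -Sz := by
  ext i j
  fin_cases i <;> fin_cases j <;> simp [Sz, mu, md, Matrix.mul_apply, Fin.sum_univ_three]

lemma half_sq : (((1 / Real.sqrt 2 : ℝ) : ℂ)) * ((1 / Real.sqrt 2 : ℝ) : ℂ) = 1 / 2 := by
  rw [← Complex.ofReal_mul]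
  have : (1 / Real.sqrt 2) * (1 / Real.sqrt 2) = (1 / 2 : ℝ) := by
    rw [div_mul_div_comm, Real.mul_self_sqrt (by norm_num)]
    norm_num
  rw [this]
  norm_num

lemma xy_bond (j k : Fin L) :
    siteOp j Sx * siteOp k Sx + siteOp j Sy * siteOp k Sy
      = siteOp j mu * siteOp k md + siteOp j md * siteOp k mu := by
  rw [Sx_eq, Sy_eq]
  simp only [siteOp_smul, siteOp_add, siteOp_sub, smul_mul_smul_comm]
  have hc' : (((1 / Real.sqrt 2 : ℝ) : ℂ) * (-Complex.I))
      * (((1 / Real.sqrt 2 : ℝ) : ℂ) * (-Complex.I)) = -(1 / 2) := by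
    calc (((1 / Real.sqrt 2 : ℝ) : ℂ) * (-Complex.I))
          * (((1 / Real.sqrt 2 : ℝ) : ℂ) * (-Complex.I))
        = ((((1 / Real.sqrt 2 : ℝ) : ℂ)) * ((1 / Real.sqrt 2 : ℝ) : ℂ))
            * (Complex.I * Complex.I) := by ring
      _ = -(1 / 2) := by rw [half_sq, Complex.I_mul_I]; ring
  rw [half_sq, hc']
  simp only [add_mul, mul_add, sub_mul, mul_sub]
  module

/-- the bond interaction in raising and lowering form -/
def bond (j k : Fin L) : Matrix (Cfg L) (Cfg L) ℂ :=
  siteOp j Sz * siteOp k Sz + siteOp j mu * siteOp k md + siteOp j md * siteOp k mu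

lemma heis_eq [NeZero L] : heis L = ∑ j : Fin L, bond j (j + 1) := by
  unfold heis bond
  refine Finset.sum_congr rfl fun j _ => ?_
  rw [xy_bond]
  abel

lemma bond_symm {j k : Fin L} (hjk : j ≠ k) : bond j k = bond k j := by
  unfold bond
  rw [siteOp_comm hjk Sz Sz, siteOp_comm hjk mu md, siteOp_comm hjk md mu]
  abel

lemma bond_comm_far {i j k : Fin L} (hij : i ≠ j) (hik : i ≠ k) :
    bond j k * siteOp i mu = siteOp i mu * bond j k := by
  have hc : ∀ (l : Fin L) (A : Matrix (Fin 3) (Fin 3) ℂ), i ≠ l →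
      Commute (siteOp i mu) (siteOp l A) := fun l A h => siteOp_comm h mu A
  have h : Commute (siteOp i mu) (bond j k) :=
    (((hc j Sz hij).mul_right (hc k Sz hik)).add_right
      ((hc j mu hij).mul_right (hc k md hik))).add_right
      ((hc j md hij).mul_right (hc k mu hik))
  exact h.eq.symm

lemma bond_comm_left {j k : Fin L} (hjk : j ≠ k) :
    bond j k * siteOp j mu - siteOp j mu * bond j k
      = siteOp j mu * siteOp k Sz - siteOp j Sz * siteOp k mu := by
  have c1 : ∀ A B : Matrix (Fin 3) (Fin 3) ℂ,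
      siteOp j A * siteOp k B * siteOp j mu = siteOp j (A * mu) * siteOp k B := by
    intro A B
    rw [mul_assoc, siteOp_comm hjk.symm B mu, ← mul_assoc, siteOp_mul]
  have c2 : ∀ A B : Matrix (Fin 3) (Fin 3) ℂ,
      siteOp j mu * (siteOp j A * siteOp k B) = siteOp j (mu * A) * siteOp k B := by
    intro A B
    rw [← mul_assoc, siteOp_mul]
  have e1 : siteOp j (Sz * mu) = siteOp j (mu * Sz) + siteOp j mu := by
    rw [← siteOp_add]
    congr 1
    have := sz_mu
    rw [sub_eq_iff_eq_add] at this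
    rw [this, add_comm]
  have e2 : siteOp j (md * mu) = siteOp j (mu * md) - siteOp j Sz := by
    rw [← siteOp_sub]
    congr 1
    have := md_mu
    rw [sub_eq_iff_eq_add] at this
    rw [this]
    abel
  unfold bond
  rw [add_mul, add_mul, mul_add, mul_add, c1, c1, c1, c2, c2, c2, e1, e2]
  simp only [add_mul, sub_mul]
  abel

lemma bond_comm_right {j k : Fin L} (hjk : j ≠ k) :
    bond j k * siteOp k mu - siteOp k mu * bond j k
      = siteOp k mu * siteOp j Sz - siteOp k Sz * siteOp j mu := by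
  rw [bond_symm hjk]
  exact bond_comm_left hjk.symm

end Vale.Agent.Lib.P348
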