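import Mathlib

namespace Vale.Agent.Lib.P348

open Matrix

/-- Configurations of a chain of `L` spin-one sites: a value in `Fin 3` at each site
(index `0, 1, 2` stands for the `S^z` eigenvalue `1, 0, -1`). -/
abbrev Cfg (L : ℕ) : Type := Fin L → Fin 3

/-- The spin-one matrix `S^x`. -/
noncomputable def Sx : Matrix (Fin 3) (Fin 3) ℂ :=
  ((1 / Real.sqrt 2 : ℝ) : ℂ) • !![0, 1, 0; 1, 0, 1; 0, 1, 0]

/-- The spin-one matrix `S^y`. -/
noncomputable def Sy : Matrix (Fin 3) (Fin 3) ℂ :=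
  ((1 / Real.sqrt 2 : ℝ) : ℂ) •
    !![0, -Complex.I, 0; Complex.I, 0, -Complex.I; 0, Complex.I, 0]

/-- The spin-one matrix `S^z`. -/
def Sz : Matrix (Fin 3) (Fin 3) ℂ := !![1, 0, 0; 0, 0, 0; 0, 0, -1]

/-- `siteOp j A` acts as `A` on the tensor factor `j` and as the identity on the others:
its `(s, t)` entry is `A (s j) (t j)` if `s` and `t` agree away from `j`, and `0` otherwise. -/
def siteOp {L : ℕ} (j : Fin L) (A : Matrix (Fin 3) (Fin 3) ℂ) :
    Matrix (Cfg L) (Cfg L) ℂ :=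
  Matrix.of fun s t => if ∀ k, k ≠ j → s k = t k then A (s j) (t j) else 0

/-- The spin-one Heisenberg Hamiltonian on the periodic ring of `L` sites
(`j + 1` is addition in `Fin L`, so site `L` is site `0`). -/
noncomputable def heis (L : ℕ) [NeZero L] : Matrix (Cfg L) (Cfg L) ℂ :=
  ∑ j : Fin L, (siteOp j Sx * siteOp (j + 1) Sx + siteOp j Sy * siteOp (j + 1) Sy
    + siteOp j Sz * siteOp (j + 1) Sz)

/-- The set of real eigenvalues of a complex square matrix. -/
def eigs {n : Type} [Fintype n] (A : Matrix n n ℂ) : Set ℝ :=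
  {μ | ∃ v : n → ℂ, v ≠ 0 ∧ A *ᵥ v = (μ : ℂ) • v}

end Vale.Agent.Lib.P348
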