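import Vale.Agent.Lib.P348.Sector

namespace Vale.Agent.Lib.P348

open Matrix

variable {L : ℕ}

lemma mu_diag (a : Fin 3) : mu a a = 0 := by
  fin_cases a <;> simp [mu]

lemma md_diag (a : Fin 3) : md a a = 0 := by
  fin_cases a <;> simp [md]

lemma heis_diag [NeZero L] (hL : 2 ≤ L) (s : Cfg L) :
    heis L s s = ∑ j : Fin L, Sz (s j) (s j) * Sz (s (j + 1)) (s (j + 1)) := by
  rw [heis_eq, Matrix.sum_apply]
  refine Finset.sum_congr rfl fun j _ => ?_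
  unfold bond
  rw [Matrix.add_apply, Matrix.add_apply, siteOp_mul_diag (succ_ne hL j),
    siteOp_mul_diag (succ_ne hL j), siteOp_mul_diag (succ_ne hL j)]
  simp only [mu_diag, md_diag, mul_zero, zero_mul, add_zero]

lemma diag_ge {E0 : ℝ} (A : Matrix (Cfg L) (Cfg L) ℂ)
    (hray : ∀ v : Cfg L → ℂ, E0 * nsq v ≤ (star v ⬝ᵥ (A *ᵥ v)).re) (s : Cfg L) :
    E0 ≤ (A s s).re := by
  have h := hray (Pi.single s 1)
  have h1 : nsq (Pi.single s (1 : ℂ)) = 1 := by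
    unfold nsq
    rw [Finset.sum_eq_single s]
    · simp
    · intro t _ ht
      simp [ht]
    · simp
  have h2 : star (Pi.single s (1 : ℂ)) ⬝ᵥ (A *ᵥ Pi.single s 1) = A s s := by
    rw [mulVec_single_one]
    simp [dotProduct, Pi.single_apply]
  rw [h1, h2, mul_one] at h
  exact h

lemma sz_mulVec (j : Fin L) (v : Cfg L → ℂ) (s : Cfg L) :
    (siteOp j Sz *ᵥ v) s = Sz (s j) (s j) * v s := by
  rw [siteOp_mulVec, Finset.sum_eq_single (s j)]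
  · rw [Function.update_eq_self]
  · intro a _ ha
    have : Sz (s j) a = 0 := by
      by_contra h
      exact ha (sz_entry h).symm
    rw [this, zero_mul]
  · simp

lemma sz_norm_le (a : Fin 3) : ‖Sz a a‖ ≤ 1 := by
  fin_cases a <;> simp [Sz]

lemma sz_pair_bound (j : Fin L) (w w' : Cfg L → ℂ) :
    |(star w ⬝ᵥ (siteOp j Sz *ᵥ w')).re| ≤ (nsq w + nsq w') / 2 := by
  have h0 : (star w ⬝ᵥ (siteOp j Sz *ᵥ w')).re
      = ∑ s, ((starRingEnd ℂ) (w s) * (Sz (s j) (s j) * w' s)).re := by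
    simp only [dotProduct, sz_mulVec, Pi.star_apply, Complex.re_sum, RCLike.star_def]
  rw [h0]
  calc |∑ s, ((starRingEnd ℂ) (w s) * (Sz (s j) (s j) * w' s)).re|
      ≤ ∑ s, |((starRingEnd ℂ) (w s) * (Sz (s j) (s j) * w' s)).re| :=
        Finset.abs_sum_le_sum_abs _ _
    _ ≤ ∑ s, (‖w s‖ ^ 2 + ‖w' s‖ ^ 2) / 2 := by
        refine Finset.sum_le_sum fun s _ => ?_
        have h1 := Complex.abs_re_le_norm ((starRingEnd ℂ) (w s) * (Sz (s j) (s j) * w' s))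
        rw [norm_mul, norm_mul, RCLike.norm_conj] at h1
        have h2 := sz_norm_le (s j)
        have h3 : ‖w s‖ * (‖Sz (s j) (s j)‖ * ‖w' s‖) ≤ ‖w s‖ * ‖w' s‖ := by
          apply mul_le_mul_of_nonneg_left _ (norm_nonneg _)
          calc ‖Sz (s j) (s j)‖ * ‖w' s‖ ≤ 1 * ‖w' s‖ :=
                mul_le_mul_of_nonneg_right h2 (norm_nonneg _)
            _ = ‖w' s‖ := one_mul _
        nlinarith [sq_nonneg (‖w s‖ - ‖w' s‖)]
    _ = (nsq w + nsq w') / 2 := by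
        unfold nsq
        rw [← Finset.sum_add_distrib, Finset.sum_div]

lemma energy_identity [NeZero L] {E0 : ℝ} {ψ : Cfg L → ℂ}
    (hψ : heis L *ᵥ ψ = (E0 : ℂ) • ψ) (i : Fin L) :
    heis L *ᵥ (siteOp i mu *ᵥ ψ) = (E0 : ℂ) • (siteOp i mu *ᵥ ψ)
      + ∑ j : Fin L, (bond j (j + 1) * siteOp i mu - siteOp i mu * bond j (j + 1)) *ᵥ ψ := by
  have h : ∑ j : Fin L, (bond j (j + 1) * siteOp i mu - siteOp i mu * bond j (j + 1))
      = heis L * siteOp i mu - siteOp i mu * heis L := by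
    rw [heis_eq, Finset.sum_mul, Finset.mul_sum, Finset.sum_sub_distrib]
  rw [← sum_mulVec, h, sub_mulVec, ← mulVec_mulVec, ← mulVec_mulVec, hψ, mulVec_smul]
  abel

lemma comm_term_left {j k : Fin L} (hjk : j ≠ k) (ψ : Cfg L → ℂ) :
    (bond j k * siteOp j mu - siteOp j mu * bond j k) *ᵥ ψ
      = siteOp k Sz *ᵥ (siteOp j mu *ᵥ ψ) - siteOp j Sz *ᵥ (siteOp k mu *ᵥ ψ) := by
  rw [bond_comm_left hjk, sub_mulVec, siteOp_comm hjk mu Sz, ← mulVec_mulVec, ← mulVec_mulVec]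

lemma comm_term_right {j k : Fin L} (hjk : j ≠ k) (ψ : Cfg L → ℂ) :
    (bond j k * siteOp k mu - siteOp k mu * bond j k) *ᵥ ψ
      = siteOp j Sz *ᵥ (siteOp k mu *ᵥ ψ) - siteOp k Sz *ᵥ (siteOp j mu *ᵥ ψ) := by
  rw [bond_comm_right hjk, sub_mulVec, siteOp_comm hjk.symm mu Sz, ← mulVec_mulVec,
    ← mulVec_mulVec]

lemma energy_sum_bound [NeZero L] (hL : 2 ≤ L) {E0 : ℝ} {ψ : Cfg L → ℂ}
    (hψ : heis L *ᵥ ψ = (E0 : ℂ) • ψ) :
    ∑ i : Fin L, ((star (siteOp i mu *ᵥ ψ) ⬝ᵥ (heis L *ᵥ (siteOp i mu *ᵥ ψ))).re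
        - E0 * nsq (siteOp i mu *ᵥ ψ))
      ≤ 4 * ∑ i : Fin L, nsq (siteOp i mu *ᵥ ψ) := by
  have h1 : ∀ i : Fin L, (star (siteOp i mu *ᵥ ψ) ⬝ᵥ (heis L *ᵥ (siteOp i mu *ᵥ ψ))).re
        - E0 * nsq (siteOp i mu *ᵥ ψ)
      = ∑ j : Fin L, (star (siteOp i mu *ᵥ ψ) ⬝ᵥ
          ((bond j (j + 1) * siteOp i mu - siteOp i mu * bond j (j + 1)) *ᵥ ψ)).re := by
    intro i
    rw [energy_identity hψ i, dotProduct_add, dotProduct_smul, star_dot_self, dotProduct_sum,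
      Complex.add_re, Complex.re_sum]
    simp
  rw [Finset.sum_congr rfl (fun i _ => h1 i), Finset.sum_comm]
  have h2 : ∀ j : Fin L, ∑ i : Fin L, (star (siteOp i mu *ᵥ ψ) ⬝ᵥ
          ((bond j (j + 1) * siteOp i mu - siteOp i mu * bond j (j + 1)) *ᵥ ψ)).re
      ≤ 2 * nsq (siteOp j mu *ᵥ ψ) + 2 * nsq (siteOp (j + 1) mu *ᵥ ψ) := by
    intro j
    have hjk := succ_ne hL j
    rw [Fintype.sum_eq_add j (j + 1) hjk]
    · rw [comm_term_left hjk, comm_term_right hjk, dotProduct_sub, dotProduct_sub,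
        Complex.sub_re, Complex.sub_re]
      have b1 := abs_le.1 (sz_pair_bound (j + 1) (siteOp j mu *ᵥ ψ) (siteOp j mu *ᵥ ψ))
      have b2 := abs_le.1 (sz_pair_bound j (siteOp j mu *ᵥ ψ) (siteOp (j + 1) mu *ᵥ ψ))
      have b3 := abs_le.1 (sz_pair_bound j (siteOp (j + 1) mu *ᵥ ψ) (siteOp (j + 1) mu *ᵥ ψ))
      have b4 := abs_le.1 (sz_pair_bound (j + 1) (siteOp (j + 1) mu *ᵥ ψ) (siteOp j mu *ᵥ ψ))
      linarith [b1.1, b1.2, b2.1, b2.2, b3.1, b3.2, b4.1, b4.2]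
    · rintro i ⟨hi1, hi2⟩
      rw [bond_comm_far hi1 hi2, sub_self, zero_mulVec, dotProduct_zero, Complex.zero_re]
  calc ∑ j : Fin L, ∑ i : Fin L, (star (siteOp i mu *ᵥ ψ) ⬝ᵥ
          ((bond j (j + 1) * siteOp i mu - siteOp i mu * bond j (j + 1)) *ᵥ ψ)).re
      ≤ ∑ j : Fin L, (2 * nsq (siteOp j mu *ᵥ ψ) + 2 * nsq (siteOp (j + 1) mu *ᵥ ψ)) :=
        Finset.sum_le_sum fun j _ => h2 j
    _ = 4 * ∑ i : Fin L, nsq (siteOp i mu *ᵥ ψ) := by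
        have hs : ∑ i : Fin L, nsq (siteOp (i + 1) mu *ᵥ ψ)
            = ∑ i : Fin L, nsq (siteOp i mu *ᵥ ψ) :=
          Equiv.sum_comp (Equiv.addRight (1 : Fin L)) (fun j => nsq (siteOp j mu *ᵥ ψ))
        rw [Finset.sum_add_distrib, ← Finset.mul_sum, ← Finset.mul_sum, hs]
        ring

end Vale.Agent.Lib.P348
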