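import Vale.Agent.Lib.P348.Bond

namespace Vale.Agent.Lib.P348

open Matrix

variable {L : ℕ}

lemma succ_ne [NeZero L] (hL : 2 ≤ L) (j : Fin L) : j ≠ j + 1 := by
  intro h
  have h1 : (1 : Fin L) = 0 := by
    have : j + 1 = j + 0 := by rw [add_zero]; exact h.symm
    exact add_left_cancel this
  have h2 := congrArg Fin.val h1
  rw [Fin.val_one', Fin.val_zero] at h2
  have : 1 % L = 1 := Nat.mod_eq_of_lt (by omega)
  omega

lemma sz_herm : Szᴴ = Sz := by
  ext i j
  fin_cases i <;> fin_cases j <;> simp [Sz, conjTranspose_apply]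

lemma mu_herm : muᴴ = md := by
  ext i j
  fin_cases i <;> fin_cases j <;> simp [mu, md, conjTranspose_apply]

lemma md_herm : mdᴴ = mu := by
  ext i j
  fin_cases i <;> fin_cases j <;> simp [mu, md, conjTranspose_apply]

lemma bond_herm {j k : Fin L} (hjk : j ≠ k) : (bond j k)ᴴ = bond j k := by
  have h : (bond j k)ᴴ = bond k j := by
    unfold bond
    simp only [conjTranspose_add, conjTranspose_mul, siteOp_conjTranspose, sz_herm, mu_herm,
      md_herm]
  rw [h, bond_symm hjk.symm]

lemma heis_herm [NeZero L] (hL : 2 ≤ L) : (heis L).IsHermitian := by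
  unfold Matrix.IsHermitian
  rw [heis_eq, conjTranspose_sum]
  exact Finset.sum_congr rfl fun j _ => bond_herm (succ_ne hL j)

/-- total number of lowered units of a configuration -/
def N (s : Cfg L) : ℕ := ∑ j, (s j : ℕ)

lemma N_update (s : Cfg L) (j : Fin L) (a : Fin 3) :
    N (Function.update s j a) + (s j : ℕ) = N s + (a : ℕ) := by
  unfold N
  rw [← Finset.add_sum_erase _ _ (Finset.mem_univ j),
    ← Finset.add_sum_erase _ (fun k => ((s k : Fin 3) : ℕ)) (Finset.mem_univ j)]
  simp only [Function.update_self]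
  have : ∑ k ∈ Finset.univ.erase j, ((Function.update s j a k : Fin 3) : ℕ)
      = ∑ k ∈ Finset.univ.erase j, ((s k : Fin 3) : ℕ) := by
    refine Finset.sum_congr rfl fun k hk => ?_
    rw [Function.update_of_ne (Finset.ne_of_mem_erase hk)]
  rw [this]
  omega

/-- restriction of a vector to the configurations satisfying `p` -/
def restrict (p : Cfg L → Prop) [DecidablePred p] (v : Cfg L → ℂ) : Cfg L → ℂ :=
  fun s => if p s then v s else 0

lemma restrict_add (p : Cfg L → Prop) [DecidablePred p] (v w : Cfg L → ℂ) :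
    restrict p (v + w) = restrict p v + restrict p w := by
  funext s
  simp only [restrict, Pi.add_apply]
  split_ifs <;> simp

lemma restrict_smul (p : Cfg L → Prop) [DecidablePred p] (c : ℂ) (v : Cfg L → ℂ) :
    restrict p (c • v) = c • restrict p v := by
  funext s
  simp only [restrict, Pi.smul_apply]
  split_ifs <;> simp

lemma restrict_sum {ι : Type} (S : Finset ι) (p : Cfg L → Prop) [DecidablePred p]
    (f : ι → Cfg L → ℂ) :
    restrict p (∑ i ∈ S, f i) = ∑ i ∈ S, restrict p (f i) := by
  funext s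
  simp only [restrict, Finset.sum_apply]
  split_ifs <;> simp

lemma siteOp_restrict (j : Fin L) (A : Matrix (Fin 3) (Fin 3) ℂ) (p q : Cfg L → Prop)
    [DecidablePred p] [DecidablePred q]
    (hpq : ∀ (s : Cfg L) (a : Fin 3), A (s j) a ≠ 0 → (q s ↔ p (Function.update s j a)))
    (v : Cfg L → ℂ) :
    siteOp j A *ᵥ restrict p v = restrict q (siteOp j A *ᵥ v) := by
  funext s
  simp only [restrict, siteOp_mulVec]
  by_cases hq : q s
  · rw [if_pos hq]
    refine Finset.sum_congr rfl fun a _ => ?_
    by_cases hA : A (s j) a = 0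
    · rw [hA, zero_mul, zero_mul]
    · rw [if_pos ((hpq s a hA).1 hq)]
  · rw [if_neg hq]
    apply Finset.sum_eq_zero
    intro a _
    by_cases hA : A (s j) a = 0
    · rw [hA, zero_mul]
    · rw [if_neg (fun h => hq ((hpq s a hA).2 h)), mul_zero]

lemma mu_entry {a b : Fin 3} (h : mu a b ≠ 0) : (a : ℕ) + 1 = b := by
  fin_cases a <;> fin_cases b <;> simp [mu] at h ⊢

lemma md_entry {a b : Fin 3} (h : md a b ≠ 0) : (a : ℕ) = b + 1 := by
  fin_cases a <;> fin_cases b <;> simp [md] at h ⊢

lemma sz_entry {a b : Fin 3} (h : Sz a b ≠ 0) : a = b := by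
  fin_cases a <;> fin_cases b <;> simp [Sz] at h ⊢

lemma mu_restrict (j : Fin L) (m : ℕ) (v : Cfg L → ℂ) :
    siteOp j mu *ᵥ restrict (fun s => N s = m) v
      = restrict (fun s => N s + 1 = m) (siteOp j mu *ᵥ v) := by
  apply siteOp_restrict
  intro s a ha
  have h1 := mu_entry ha
  have h2 := N_update s j a
  constructor <;> intro h <;> omega

lemma mu_restrict' (j : Fin L) (m : ℕ) (v : Cfg L → ℂ) :
    siteOp j mu *ᵥ restrict (fun s => N s = m + 1) v
      = restrict (fun s => N s = m) (siteOp j mu *ᵥ v) := by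
  apply siteOp_restrict
  intro s a ha
  have h1 := mu_entry ha
  have h2 := N_update s j a
  constructor <;> intro h <;> omega

lemma md_restrict (j : Fin L) (m : ℕ) (v : Cfg L → ℂ) :
    siteOp j md *ᵥ restrict (fun s => N s = m) v
      = restrict (fun s => N s = m + 1) (siteOp j md *ᵥ v) := by
  apply siteOp_restrict
  intro s a ha
  have h1 := md_entry ha
  have h2 := N_update s j a
  constructor <;> intro h <;> omega

lemma md_restrict' (j : Fin L) (m : ℕ) (v : Cfg L → ℂ) :
    siteOp j md *ᵥ restrict (fun s => N s + 1 = m) v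
      = restrict (fun s => N s = m) (siteOp j md *ᵥ v) := by
  apply siteOp_restrict
  intro s a ha
  have h1 := md_entry ha
  have h2 := N_update s j a
  constructor <;> intro h <;> omega

lemma sz_restrict (j : Fin L) (p : Cfg L → Prop) [DecidablePred p] (v : Cfg L → ℂ) :
    siteOp j Sz *ᵥ restrict p v = restrict p (siteOp j Sz *ᵥ v) := by
  apply siteOp_restrict
  intro s a ha
  have h1 := sz_entry ha
  rw [← h1, Function.update_eq_self]

lemma bond_restrict (j k : Fin L) (m : ℕ) (v : Cfg L → ℂ) :
    bond j k *ᵥ restrict (fun s => N s = m) v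
      = restrict (fun s => N s = m) (bond j k *ᵥ v) := by
  unfold bond
  simp only [add_mulVec, ← mulVec_mulVec]
  rw [sz_restrict, sz_restrict, md_restrict, mu_restrict', mu_restrict, md_restrict',
    restrict_add, restrict_add]

lemma heis_restrict [NeZero L] (m : ℕ) (v : Cfg L → ℂ) :
    heis L *ᵥ restrict (fun s => N s = m) v
      = restrict (fun s => N s = m) (heis L *ᵥ v) := by
  rw [heis_eq, sum_mulVec, sum_mulVec, restrict_sum]
  exact Finset.sum_congr rfl fun j _ => bond_restrict j (j + 1) m v

lemma ground_restrict [NeZero L] {E0 : ℝ} {g : Cfg L → ℂ}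
    (hg : heis L *ᵥ g = (E0 : ℂ) • g) (m : ℕ) :
    heis L *ᵥ restrict (fun s => N s = m) g
      = (E0 : ℂ) • restrict (fun s => N s = m) g := by
  rw [heis_restrict, hg, restrict_smul]

end Vale.Agent.Lib.P348
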