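import Vale.Agent.Lib.P348.Spectral

namespace Vale.Agent.Lib.P348

open Matrix

variable {L : ℕ}

/-- action of a site operator on a vector -/
lemma siteOp_mulVec (j : Fin L) (A : Matrix (Fin 3) (Fin 3) ℂ) (v : Cfg L → ℂ) (s : Cfg L) :
    (siteOp j A *ᵥ v) s = ∑ a : Fin 3, A (s j) a * v (Function.update s j a) := by
  simp only [mulVec, dotProduct, siteOp, of_apply]
  have key : ∀ t : Cfg L, (if ∀ k, k ≠ j → s k = t k then A (s j) (t j) else 0) * v t
      = ∑ a : Fin 3, if t = Function.update s j a
          then A (s j) a * v (Function.update s j a) else 0 := by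
    intro t
    by_cases h : ∀ k, k ≠ j → s k = t k
    · rw [if_pos h, Finset.sum_eq_single (t j)]
      · have ht : t = Function.update s j (t j) := by
          funext k
          by_cases hk : k = j
          · subst hk; simp
          · simp [Function.update_of_ne hk, h k hk]
        rw [if_pos ht, ← ht]
      · intro a _ ha
        rw [if_neg]
        intro h'
        apply ha
        rw [h']; simp
      · simp
    · rw [if_neg h, zero_mul]
      symm
      apply Finset.sum_eq_zero
      intro a _
      rw [if_neg]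
      intro h'
      apply h
      intro k hk
      rw [h', Function.update_of_ne hk]
  rw [Finset.sum_congr rfl (fun t _ => key t), Finset.sum_comm]
  refine Finset.sum_congr rfl fun a _ => ?_
  simp

lemma siteOp_mul (j : Fin L) (A B : Matrix (Fin 3) (Fin 3) ℂ) :
    siteOp j A * siteOp j B = siteOp j (A * B) := by
  apply Matrix.mulVec_injective
  funext v s
  rw [← mulVec_mulVec, siteOp_mulVec, siteOp_mulVec]
  simp only [siteOp_mulVec, Function.update_self, Function.update_idem, Matrix.mul_apply,
    Finset.sum_mul, Finset.mul_sum]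
  rw [Finset.sum_comm]
  refine Finset.sum_congr rfl fun a _ => Finset.sum_congr rfl fun b _ => ?_
  ring

lemma siteOp_comm {j k : Fin L} (hjk : j ≠ k) (A B : Matrix (Fin 3) (Fin 3) ℂ) :
    siteOp j A * siteOp k B = siteOp k B * siteOp j A := by
  apply Matrix.mulVec_injective
  funext v s
  rw [← mulVec_mulVec, ← mulVec_mulVec, siteOp_mulVec, siteOp_mulVec]
  simp only [siteOp_mulVec, Function.update_of_ne hjk, Function.update_of_ne hjk.symm,
    Finset.mul_sum]
  rw [Finset.sum_comm]
  refine Finset.sum_congr rfl fun a _ => Finset.sum_congr rfl fun b _ => ?_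
  rw [Function.update_comm hjk]
  ring

lemma siteOp_add (j : Fin L) (A B : Matrix (Fin 3) (Fin 3) ℂ) :
    siteOp j (A + B) = siteOp j A + siteOp j B := by
  ext s t
  by_cases h : ∀ k, k ≠ j → s k = t k
  · simp only [siteOp, of_apply, Matrix.add_apply, if_pos h]
  · simp only [siteOp, of_apply, Matrix.add_apply, if_neg h, add_zero]

lemma siteOp_sub (j : Fin L) (A B : Matrix (Fin 3) (Fin 3) ℂ) :
    siteOp j (A - B) = siteOp j A - siteOp j B := by
  ext s t
  by_cases h : ∀ k, k ≠ j → s k = t k
  · simp only [siteOp, of_apply, Matrix.sub_apply, if_pos h]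
  · simp only [siteOp, of_apply, Matrix.sub_apply, if_neg h, sub_zero]

lemma siteOp_neg (j : Fin L) (A : Matrix (Fin 3) (Fin 3) ℂ) :
    siteOp j (-A) = -siteOp j A := by
  ext s t
  by_cases h : ∀ k, k ≠ j → s k = t k
  · simp only [siteOp, of_apply, Matrix.neg_apply, if_pos h]
  · simp only [siteOp, of_apply, Matrix.neg_apply, if_neg h, neg_zero]

lemma siteOp_smul (j : Fin L) (c : ℂ) (A : Matrix (Fin 3) (Fin 3) ℂ) :
    siteOp j (c • A) = c • siteOp j A := by
  ext s t
  by_cases h : ∀ k, k ≠ j → s k = t k
  · simp only [siteOp, of_apply, Matrix.smul_apply, if_pos h]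
  · simp only [siteOp, of_apply, Matrix.smul_apply, if_neg h, smul_zero]

lemma siteOp_conjTranspose (j : Fin L) (A : Matrix (Fin 3) (Fin 3) ℂ) :
    (siteOp j A)ᴴ = siteOp j Aᴴ := by
  ext s t
  simp only [siteOp, of_apply, conjTranspose_apply]
  by_cases h : ∀ k, k ≠ j → s k = t k
  · have h' : ∀ k, k ≠ j → t k = s k := fun k hk => (h k hk).symm
    rw [if_pos h, if_pos h']
  · have h' : ¬ ∀ k, k ≠ j → t k = s k := fun h2 => h fun k hk => (h2 k hk).symm
    rw [if_neg h, if_neg h']
    simp

/-- diagonal entries of a product of operators at two different sites -/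
lemma siteOp_mul_diag {j k : Fin L} (hjk : j ≠ k) (A B : Matrix (Fin 3) (Fin 3) ℂ)
    (s : Cfg L) :
    (siteOp j A * siteOp k B) s s = A (s j) (s j) * B (s k) (s k) := by
  rw [Matrix.mul_apply, Finset.sum_eq_single s]
  · simp [siteOp]
  · intro r _ hr
    simp only [siteOp, of_apply]
    by_cases h1 : ∀ l, l ≠ j → s l = r l
    · by_cases h2 : ∀ l, l ≠ k → r l = s l
      · exfalso
        apply hr
        funext l
        by_cases hl : l = j
        · subst hl
          exact h2 l hjk
        · exact (h1 l hl).symm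
      · rw [if_neg h2, mul_zero]
    · rw [if_neg h1, zero_mul]
  · simp

end Vale.Agent.Lib.P348
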