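import Vale.Agent.Lib.P348.Defs

namespace Vale.Agent.Lib.P348

open Matrix

variable {n : Type} [Fintype n] [DecidableEq n]

/-- squared Euclidean norm of a complex vector -/
noncomputable def nsq (v : n → ℂ) : ℝ := ∑ i, ‖v i‖ ^ 2

omit [DecidableEq n] in
lemma star_dot_self (v : n → ℂ) : star v ⬝ᵥ v = ((nsq v : ℝ) : ℂ) := by
  simp only [dotProduct, nsq, Pi.star_apply, Complex.ofReal_sum, Complex.ofReal_pow]
  refine Finset.sum_congr rfl fun i _ => ?_
  exact Complex.conj_mul' (v i)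

omit [DecidableEq n] in
lemma nsq_nonneg (v : n → ℂ) : 0 ≤ nsq v :=
  Finset.sum_nonneg fun _ _ => by positivity

omit [DecidableEq n] in
lemma nsq_eq_zero {v : n → ℂ} (h : nsq v = 0) : v = 0 := by
  unfold nsq at h
  rw [Finset.sum_eq_zero_iff_of_nonneg (fun _ _ => by positivity)] at h
  funext i
  have := h i (Finset.mem_univ i)
  simpa using this

omit [DecidableEq n] in
lemma nsq_pos {v : n → ℂ} (h : v ≠ 0) : 0 < nsq v :=
  lt_of_le_of_ne (nsq_nonneg v) fun h0 => h (nsq_eq_zero h0.symm)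

/-- unitary diagonalisation of a Hermitian matrix, in elementary form -/
theorem spectral_package (A : Matrix n n ℂ) (hA : A.IsHermitian) :
    ∃ (U : Matrix n n ℂ) (lam : n → ℝ), star U * U = 1 ∧ U * star U = 1 ∧
      A = U * diagonal (fun i => (lam i : ℂ)) * star U := by
  refine ⟨(hA.eigenvectorUnitary : Matrix n n ℂ), hA.eigenvalues, ?_, ?_, ?_⟩
  · exact Unitary.coe_star_mul_self _
  · exact Unitary.coe_mul_star_self _
  · have h := hA.spectral_theorem
    rw [Unitary.conjStarAlgAut_apply] at h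
    exact h


section pkg

variable {A U : Matrix n n ℂ} {lam : n → ℝ}

lemma pkg_mulVec (hA : A = U * diagonal (fun i => (lam i : ℂ)) * star U) (v : n → ℂ) :
    A *ᵥ v = U *ᵥ (fun i => (lam i : ℂ) * (star U *ᵥ v) i) := by
  rw [hA, ← mulVec_mulVec, ← mulVec_mulVec]
  congr 1
  funext i
  rw [mulVec_diagonal]

lemma pkg_back (h2 : U * star U = 1) (v : n → ℂ) : U *ᵥ (star U *ᵥ v) = v := by
  rw [mulVec_mulVec, h2, one_mulVec]

lemma pkg_fwd (h1 : star U * U = 1) (c : n → ℂ) : star U *ᵥ (U *ᵥ c) = c := by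
  rw [mulVec_mulVec, h1, one_mulVec]

omit [DecidableEq n] in
lemma pkg_dot (v w : n → ℂ) : star (U *ᵥ v) ⬝ᵥ w = star v ⬝ᵥ (star U *ᵥ w) := by
  rw [star_mulVec, dotProduct_mulVec, star_eq_conjTranspose]

lemma pkg_nsq' (h1 : star U * U = 1) (c : n → ℂ) : nsq (U *ᵥ c) = nsq c := by
  have h : ((nsq (U *ᵥ c) : ℝ) : ℂ) = ((nsq c : ℝ) : ℂ) := by
    rw [← star_dot_self, ← star_dot_self, pkg_dot, pkg_fwd h1]
  exact_mod_cast h

lemma pkg_nsq (h1 : star U * U = 1) (h2 : U * star U = 1) (v : n → ℂ) :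
    nsq v = nsq (star U *ᵥ v) := by
  conv_lhs => rw [← pkg_back h2 v]
  exact pkg_nsq' h1 _

/-- Rayleigh quotient numerator in the eigenbasis -/
lemma pkg_rayleigh
    (hA : A = U * diagonal (fun i => (lam i : ℂ)) * star U) (v : n → ℂ) :
    (star v ⬝ᵥ (A *ᵥ v)).re = ∑ i, lam i * ‖(star U *ᵥ v) i‖ ^ 2 := by
  have h : star v ⬝ᵥ (A *ᵥ v)
      = ((∑ i, lam i * ‖(star U *ᵥ v) i‖ ^ 2 : ℝ) : ℂ) := by
    rw [pkg_mulVec hA v]
    have hv : star v ⬝ᵥ (U *ᵥ fun i => (lam i : ℂ) * (star U *ᵥ v) i)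
        = star (star U *ᵥ v) ⬝ᵥ (fun i => (lam i : ℂ) * (star U *ᵥ v) i) := by
      rw [dotProduct_mulVec, star_mulVec, star_eq_conjTranspose, conjTranspose_conjTranspose]
    rw [hv]
    simp only [dotProduct, Pi.star_apply, Complex.ofReal_sum, Complex.ofReal_mul,
      Complex.ofReal_pow]
    refine Finset.sum_congr rfl fun i _ => ?_
    rw [← Complex.conj_mul' ((star U *ᵥ v) i)]
    simp only [RCLike.star_def]
    ring
  rw [h, Complex.ofReal_re]

/-- columns of `U` are eigenvectors -/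
lemma pkg_eigvec (h1 : star U * U = 1)
    (hA : A = U * diagonal (fun i => (lam i : ℂ)) * star U) (i : n) :
    U *ᵥ Pi.single i 1 ≠ 0 ∧
      A *ᵥ (U *ᵥ Pi.single i 1) = (lam i : ℂ) • (U *ᵥ Pi.single i 1) := by
  constructor
  · intro h0
    have := pkg_fwd h1 (Pi.single i (1 : ℂ))
    rw [h0, mulVec_zero] at this
    have h' := congrFun this i
    simp at h'
  · rw [pkg_mulVec hA, pkg_fwd h1, ← mulVec_smul]
    congr 1
    funext k
    by_cases hk : k = i
    · subst hk; simp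
    · simp [hk]

/-- every eigenvalue is one of the `lam i` -/
lemma pkg_eig_mem (h1 : star U * U = 1) (h2 : U * star U = 1)
    (hA : A = U * diagonal (fun i => (lam i : ℂ)) * star U) {μ : ℝ} {v : n → ℂ}
    (hv : v ≠ 0) (hAv : A *ᵥ v = (μ : ℂ) • v) : ∃ i, lam i = μ := by
  have hc : star U *ᵥ v ≠ 0 := by
    intro h0
    apply hv
    rw [← pkg_back h2 v, h0, mulVec_zero]
  have hD : (fun i => (lam i : ℂ) * (star U *ᵥ v) i) = (μ : ℂ) • (star U *ᵥ v) := by
    have : star U *ᵥ (A *ᵥ v) = star U *ᵥ ((μ : ℂ) • v) := by rw [hAv]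
    rw [pkg_mulVec hA, pkg_fwd h1, mulVec_smul] at this
    exact this
  obtain ⟨i, hi⟩ : ∃ i, (star U *ᵥ v) i ≠ 0 := by
    by_contra hcon
    push Not at hcon
    exact hc (funext hcon)
  refine ⟨i, ?_⟩
  have := congrFun hD i
  simp only [Pi.smul_apply, smul_eq_mul] at this
  have h3 := mul_right_cancel₀ hi this
  exact_mod_cast h3

end pkg

/-- The variational principle used for the gap bound. -/
theorem gap_principle [Nonempty n] (A : Matrix n n ℂ) (hA : A.IsHermitian) :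
    ∃ E0 : ℝ, IsLeast (eigs A) E0 ∧ (eigs A).Finite ∧
      (∀ v : n → ℂ, E0 * nsq v ≤ (star v ⬝ᵥ (A *ᵥ v)).re) ∧
      (∀ (C : ℝ) (φ : n → ℂ), φ ≠ 0 →
        (∀ g : n → ℂ, A *ᵥ g = (E0 : ℂ) • g → star g ⬝ᵥ φ = 0) →
        (star φ ⬝ᵥ (A *ᵥ φ)).re ≤ (E0 + C) * nsq φ →
        ∃ μ ∈ eigs A, E0 < μ ∧ μ ≤ E0 + C) := by
  obtain ⟨U, lam, h1, h2, hdec⟩ := spectral_package A hA
  obtain ⟨i0, hi0⟩ := Finite.exists_min lam
  have hmem : ∀ i, lam i ∈ eigs A := fun i =>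
    ⟨U *ᵥ Pi.single i 1, (pkg_eigvec h1 hdec i).1, (pkg_eigvec h1 hdec i).2⟩
  have hsub : ∀ μ ∈ eigs A, ∃ i, lam i = μ := by
    rintro μ ⟨v, hv, hAv⟩
    exact pkg_eig_mem h1 h2 hdec hv hAv
  refine ⟨lam i0, ⟨hmem i0, ?_⟩, ?_, ?_, ?_⟩
  · intro μ hμ
    obtain ⟨i, rfl⟩ := hsub μ hμ
    exact hi0 i
  · refine (Set.finite_range lam).subset ?_
    intro μ hμ
    obtain ⟨i, rfl⟩ := hsub μ hμ
    exact ⟨i, rfl⟩
  · intro v
    rw [pkg_rayleigh hdec, pkg_nsq h1 h2 v]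
    unfold nsq
    rw [Finset.mul_sum]
    refine Finset.sum_le_sum fun i _ => ?_
    exact mul_le_mul_of_nonneg_right (hi0 i) (by positivity)
  · intro C φ hφ horth hray
    by_contra hcon
    push Not at hcon
    set c := star U *ᵥ φ with hc
    have hzero : ∀ i, lam i = lam i0 → c i = 0 := by
      intro i hi
      have hg := horth (U *ᵥ Pi.single i 1) (by rw [← hi]; exact (pkg_eigvec h1 hdec i).2)
      rw [pkg_dot] at hg
      have hci : star (Pi.single i (1 : ℂ)) ⬝ᵥ c = c i := by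
        simp [dotProduct, Pi.single_apply]
      rw [← hci]
      exact hg
    have hterm : ∀ i, 0 ≤ (lam i - lam i0 - C) * ‖c i‖ ^ 2 := by
      intro i
      by_cases hi : lam i = lam i0
      · rw [hzero i hi]; simp
      · have h3 : lam i0 < lam i := lt_of_le_of_ne (hi0 i) (Ne.symm hi)
        have h4 := hcon (lam i) (hmem i) h3
        exact mul_nonneg (by linarith) (by positivity)
    have hsum : ∑ i, (lam i - lam i0 - C) * ‖c i‖ ^ 2 ≤ 0 := by
      rw [pkg_rayleigh hdec, pkg_nsq h1 h2 φ] at hray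
      unfold nsq at hray
      rw [Finset.mul_sum] at hray
      have : ∑ i, (lam i - lam i0 - C) * ‖c i‖ ^ 2
          = ∑ i, lam i * ‖c i‖ ^ 2 - ∑ i, (lam i0 + C) * ‖c i‖ ^ 2 := by
        rw [← Finset.sum_sub_distrib]
        exact Finset.sum_congr rfl fun i _ => by ring
      rw [this]
      linarith
    have hall : ∀ i, (lam i - lam i0 - C) * ‖c i‖ ^ 2 = 0 := by
      have h5 := le_antisymm hsum (Finset.sum_nonneg fun i _ => hterm i)
      intro i
      exact (Finset.sum_eq_zero_iff_of_nonneg fun i _ => hterm i).1 h5 i (Finset.mem_univ i)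
    have hc0 : c = 0 := by
      funext i
      by_cases hi : lam i = lam i0
      · exact hzero i hi
      · have h3 : lam i0 < lam i := lt_of_le_of_ne (hi0 i) (Ne.symm hi)
        have h4 := hcon (lam i) (hmem i) h3
        have h6 := hall i
        have h7 : ‖c i‖ ^ 2 = 0 := by
          rcases mul_eq_zero.1 h6 with h | h
          · linarith
          · exact h
        simpa using h7
    apply hφ
    rw [← pkg_back h2 φ, ← hc, hc0, mulVec_zero]

/-- From a trial vector to the existence of the first excited level within `C`. -/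
theorem gap_le_of_trial [Nonempty n] (A : Matrix n n ℂ) (hA : A.IsHermitian) (C : ℝ)
    (htrial : ∀ E0 : ℝ, IsLeast (eigs A) E0 →
      (∀ v : n → ℂ, E0 * nsq v ≤ (star v ⬝ᵥ (A *ᵥ v)).re) →
      ∃ φ : n → ℂ, φ ≠ 0 ∧ (∀ g : n → ℂ, A *ᵥ g = (E0 : ℂ) • g → star g ⬝ᵥ φ = 0) ∧
        (star φ ⬝ᵥ (A *ᵥ φ)).re ≤ (E0 + C) * nsq φ) :
    ∃ E0 E1 : ℝ, IsLeast (eigs A) E0 ∧ IsLeast {μ | μ ∈ eigs A ∧ E0 < μ} E1 ∧
      E1 - E0 ≤ C := by
  obtain ⟨E0, hE0, hfin, hray, hgap⟩ := gap_principle A hA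
  obtain ⟨φ, hφ, horth, hφray⟩ := htrial E0 hE0 hray
  obtain ⟨μ, hμ, hμ1, hμ2⟩ := hgap C φ hφ horth hφray
  have hfin' : {μ | μ ∈ eigs A ∧ E0 < μ}.Finite := hfin.subset fun x hx => hx.1
  obtain ⟨E1, hE1, hmin⟩ := Set.exists_min_image _ (fun x : ℝ => x) hfin' ⟨μ, hμ, hμ1⟩
  refine ⟨E0, E1, hE0, ⟨hE1, fun y hy => hmin y hy⟩, ?_⟩
  have := hmin μ ⟨hμ, hμ1⟩
  linarith

end Vale.Agent.Lib.P348

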