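import Vale.Agent.Lib.P348.Energy

namespace Vale.Agent.Lib.P348

open Matrix

variable {L : ℕ}

lemma sz_prod_le (a b : Fin 3) : (Sz a a * Sz b b).re ≤ 1 := by
  fin_cases a <;> fin_cases b <;> simp [Sz]

lemma N_zero {s : Cfg L} (h : N s = 0) (j : Fin L) : s j = 0 := by
  unfold N at h
  rw [Finset.sum_eq_zero_iff] at h
  have := h j (Finset.mem_univ j)
  exact Fin.ext this

lemma fin3_ne_zero (a : Fin 3) (h : a ≠ 0) : a = 1 ∨ a = 2 := by
  fin_cases a <;> simp at h ⊢

/-- the ground energy is below `L` -/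
lemma E0_lt [NeZero L] (hL : 2 ≤ L) {E0 : ℝ}
    (hray : ∀ v : Cfg L → ℂ, E0 * nsq v ≤ (star v ⬝ᵥ (heis L *ᵥ v)).re) : E0 < (L : ℝ) := by
  let s1 : Cfg L := Function.update (fun _ => 0) 0 2
  have h := diag_ge (heis L) hray s1
  rw [heis_diag hL, Complex.re_sum] at h
  have hlt : ∑ j : Fin L, (Sz (s1 j) (s1 j) * Sz (s1 (j + 1)) (s1 (j + 1))).re
      < ∑ _j : Fin L, (1 : ℝ) := by
    apply Finset.sum_lt_sum
    · intro j _
      exact sz_prod_le _ _
    · refine ⟨0, Finset.mem_univ _, ?_⟩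
      have h0 : s1 0 = 2 := by simp [s1]
      have h1 : s1 (0 + 1) = 0 := by
        have hne : (0 : Fin L) + 1 ≠ 0 := (succ_ne hL 0).symm
        show Function.update (fun _ => (0 : Fin 3)) (0 : Fin L) 2 (0 + 1) = 0
        rw [Function.update_of_ne hne]
      rw [h0, h1]
      simp [Sz]
  have hcard : ∑ _j : Fin L, (1 : ℝ) = L := by simp
  linarith

/-- the all-up configuration carries no ground vector -/
lemma ground_up_zero [NeZero L] (hL : 2 ≤ L) {E0 : ℝ}
    (hray : ∀ v : Cfg L → ℂ, E0 * nsq v ≤ (star v ⬝ᵥ (heis L *ᵥ v)).re)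
    {ψ : Cfg L → ℂ} (hψ : heis L *ᵥ ψ = (E0 : ℂ) • ψ)
    (hsupp : ∀ s, ψ s ≠ 0 → N s = 0) : ψ = 0 := by
  by_contra hne
  obtain ⟨s, hs⟩ : ∃ s, ψ s ≠ 0 := by
    by_contra hcon
    push Not at hcon
    exact hne (funext hcon)
  have hs0 : ∀ j, s j = 0 := N_zero (hsupp s hs)
  have h1 : (heis L *ᵥ ψ) s = heis L s s * ψ s := by
    simp only [mulVec, dotProduct]
    rw [Finset.sum_eq_single s]
    · intro t _ hts
      have : ψ t = 0 := by
        by_contra h
        apply hts
        funext j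
        rw [N_zero (hsupp t h) j, hs0 j]
      rw [this, mul_zero]
    · simp
  have h2 := congrFun hψ s
  rw [h1] at h2
  simp only [Pi.smul_apply, smul_eq_mul] at h2
  have h3 : heis L s s = (E0 : ℂ) := mul_right_cancel₀ hs h2
  rw [heis_diag hL] at h3
  have h4 : ∑ j : Fin L, Sz (s j) (s j) * Sz (s (j + 1)) (s (j + 1)) = (L : ℂ) := by
    have : ∀ j : Fin L, Sz (s j) (s j) * Sz (s (j + 1)) (s (j + 1)) = 1 := by
      intro j
      rw [hs0 j, hs0 (j + 1)]
      simp [Sz]
    rw [Finset.sum_congr rfl (fun j _ => this j)]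
    simp
  rw [h4] at h3
  have h5 : (L : ℝ) = E0 := by exact_mod_cast h3
  have := E0_lt hL hray
  linarith

/-- a raising operator does not kill a vector with a component that can be raised -/
lemma raise_ne_zero {ψ : Cfg L → ℂ} {s : Cfg L} (hs : ψ s ≠ 0) {i : Fin L} (hi : s i ≠ 0) :
    siteOp i mu *ᵥ ψ ≠ 0 := by
  rcases fin3_ne_zero (s i) hi with h | h
  · intro h0
    have := congrFun h0 (Function.update s i 0)
    rw [siteOp_mulVec] at this
    simp only [Function.update_self, Function.update_idem, Fin.sum_univ_three] at this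
    have hu : Function.update s i 1 = s := by rw [← h]; exact Function.update_eq_self i s
    rw [hu] at this
    simp [mu] at this
    exact hs this
  · intro h0
    have := congrFun h0 (Function.update s i 1)
    rw [siteOp_mulVec] at this
    simp only [Function.update_self, Function.update_idem, Fin.sum_univ_three] at this
    have hu : Function.update s i 2 = s := by rw [← h]; exact Function.update_eq_self i s
    rw [hu] at this
    simp [mu] at this
    exact hs this

theorem heis_trial [NeZero L] (hL : 2 ≤ L) (E0 : ℝ) (hE0 : IsLeast (eigs (heis L)) E0)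
    (hray : ∀ v : Cfg L → ℂ, E0 * nsq v ≤ (star v ⬝ᵥ (heis L *ᵥ v)).re) :
    ∃ φ : Cfg L → ℂ, φ ≠ 0 ∧
      (∀ g : Cfg L → ℂ, heis L *ᵥ g = (E0 : ℂ) • g → star g ⬝ᵥ φ = 0) ∧
      (star φ ⬝ᵥ (heis L *ᵥ φ)).re ≤ (E0 + 4) * nsq φ := by
  classical
  obtain ⟨g0, hg0, hHg0⟩ := hE0.1
  have hS : ∃ m : ℕ, ∃ g : Cfg L → ℂ, heis L *ᵥ g = (E0 : ℂ) • g ∧
      restrict (fun s => N s = m) g ≠ 0 := by
    obtain ⟨s0, hs0⟩ : ∃ s, g0 s ≠ 0 := by
      by_contra hcon
      push Not at hcon
      exact hg0 (funext hcon)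
    refine ⟨N s0, g0, hHg0, ?_⟩
    intro h
    have := congrFun h s0
    simp only [restrict, if_true, Pi.zero_apply] at this
    exact hs0 this
  obtain ⟨g, hg, hgm⟩ := Nat.find_spec hS
  have hmin : ∀ m' : ℕ, m' < Nat.find hS → ∀ g' : Cfg L → ℂ,
      heis L *ᵥ g' = (E0 : ℂ) • g' → restrict (fun s => N s = m') g' = 0 := by
    intro m' hm' g' hg'
    by_contra h
    exact Nat.find_min hS hm' ⟨g', hg', h⟩
  set m := Nat.find hS with hm
  set ψ := restrict (fun s => N s = m) g with hψdef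
  have hψ : heis L *ᵥ ψ = (E0 : ℂ) • ψ := ground_restrict hg m
  have hsupp : ∀ s, ψ s ≠ 0 → N s = m := by
    intro s hs
    by_contra h
    apply hs
    simp [hψdef, restrict, h]
  have hm1 : 1 ≤ m := by
    by_contra h
    have hm0 : m = 0 := by omega
    apply hgm
    apply ground_up_zero hL hray hψ
    intro s hs
    rw [hsupp s hs, hm0]
  obtain ⟨s, hs⟩ : ∃ s, ψ s ≠ 0 := by
    by_contra hcon
    push Not at hcon
    exact hgm (funext hcon)
  obtain ⟨i0, hi0⟩ : ∃ i, s i ≠ 0 := by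
    by_contra hcon
    push Not at hcon
    have : N s = 0 := by
      unfold N
      apply Finset.sum_eq_zero
      intro j _
      rw [hcon j]
      rfl
    have := hsupp s hs
    omega
  have hw0 : siteOp i0 mu *ᵥ ψ ≠ 0 := raise_ne_zero hs hi0
  have horth : ∀ (i : Fin L) (g' : Cfg L → ℂ), heis L *ᵥ g' = (E0 : ℂ) • g' →
      star g' ⬝ᵥ (siteOp i mu *ᵥ ψ) = 0 := by
    intro i g' hg'
    rw [hψdef, mu_restrict]
    simp only [dotProduct]
    apply Finset.sum_eq_zero
    intro t _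
    by_cases ht : N t + 1 = m
    · have h1 := hmin (N t) (by omega) g' hg'
      have h2 := congrFun h1 t
      simp only [restrict, if_true, Pi.zero_apply] at h2
      simp [h2]
    · simp [restrict, ht]
  have hsum := energy_sum_bound hL hψ
  by_contra hcon
  push Not at hcon
  have hpos : 0 < ∑ i : Fin L,
      ((star (siteOp i mu *ᵥ ψ) ⬝ᵥ (heis L *ᵥ (siteOp i mu *ᵥ ψ))).re
        - E0 * nsq (siteOp i mu *ᵥ ψ) - 4 * nsq (siteOp i mu *ᵥ ψ)) := by
    apply Finset.sum_pos'
    · intro i _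
      by_cases hwi : siteOp i mu *ᵥ ψ = 0
      · rw [hwi]
        simp [nsq]
      · have := hcon (siteOp i mu *ᵥ ψ) hwi (horth i)
        linarith
    · refine ⟨i0, Finset.mem_univ _, ?_⟩
      have := hcon (siteOp i0 mu *ᵥ ψ) hw0 (horth i0)
      linarith
  rw [Finset.sum_sub_distrib, ← Finset.mul_sum] at hpos
  linarith

/-- The first excited level of the periodic spin-one Heisenberg ring lies within `4` of the
ground level, for every length `L ≥ 2`. -/
theorem heis_gap (L : ℕ) [NeZero L] (hL : 2 ≤ L) :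
    ∃ E0 E1 : ℝ, IsLeast (eigs (heis L)) E0 ∧
      IsLeast {μ | μ ∈ eigs (heis L) ∧ E0 < μ} E1 ∧ E1 - E0 ≤ 4 :=
  gap_le_of_trial (heis L) (heis_herm hL) 4 (fun E0 hE0 hray => heis_trial hL E0 hE0 hray)

end Vale.Agent.Lib.P348
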